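import Vale.Agent.P210H.Main

namespace Vale.Agent.Results.P210.HopfWidth

open scoped ContDiff
open Vale.Agent.P366 Vale.Agent.P210H

theorem result (n : ℕ) (hn : 4 ≤ n) (J : Fin 3 → Matrix (Fin n) (Fin n) ℝ) (hJ : IsQuat J)
    (A B C : ℝ → ℝ) (hA : ContDiff ℝ ∞ A) (hB : ContDiff ℝ ∞ B) (hC : ContDiff ℝ ∞ C)
    (hpos : ∀ t, 0 ≤ t → 0 < A t ∧ 0 < B t ∧ 0 < C t) (hAC : A 0 = C 0) (hBC : B 0 = C 0)
    (hcomplete : Complete (hopf J A B C)) (hscal : ∀ x, 1 ≤ scal (hopf J A B C) x) :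
    WidthLe (rdist (hopf J A B C)) (n - 3) (48 * (n : ℝ) ^ 2 + 1) :=
  main hJ hn hA hB hC hpos (hAC.trans hBC.symm) hcomplete hscal

end Vale.Agent.Results.P210.HopfWidth
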